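import Mathlib

/-!
# P371: Lieb-Thirring sums through the quadratic form

The negative spectrum enters through its variational description: over all finite families in
`H¹`, orthonormal in `L²`, on which the form of `-d²/dx² - W` is diagonal with negative entries
`-e j`, the supremum of `∑ j, e j ^ γ` equals `Tr (H_W)_-^γ` (eigenfunctions attain it, and the
eigenvalues of a compression dominate those of the operator).
-/

open MeasureTheory
open scoped InnerProductSpace ComplexOrder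

namespace Vale.Agent.P371

/-- The semiclassical constant. -/
noncomputable def Lcl (γ : ℝ) : ℝ :=
  Real.Gamma (γ + 1) / (2 * Real.sqrt Real.pi * Real.Gamma (γ + 3 / 2))

/-- The one-bound-state constant. -/
noncomputable def L1 (γ : ℝ) : ℝ :=
  2 * ((γ - 1 / 2) / (γ + 1 / 2)) ^ (γ - 1 / 2) * Lcl γ

/-- `ψ` lies in `H¹(ℝ)` with derivative `dψ`: both are square integrable and `ψ` is a primitive
of `dψ`. -/
structure IsH1 {E : Type*} [NormedAddCommGroup E] [NormedSpace ℝ E] (ψ dψ : ℝ → E) : Prop where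
  memLp : MemLp ψ 2
  memLp_deriv : MemLp dψ 2
  ftc : ∀ a b : ℝ, ψ b - ψ a = ∫ t in a..b, dψ t

/-! ## Scalar potentials -/

/-- The form of `-d²/dx² - W`. -/
noncomputable def sForm (W ψ dψ φ dφ : ℝ → ℝ) : ℝ :=
  (∫ x, dψ x * dφ x) - ∫ x, W x * (ψ x * φ x)

/-- A nonnegative potential in `L^p`. -/
structure IsSPotential (p : ℝ) (W : ℝ → ℝ) : Prop where
  nonneg : ∀ x, 0 ≤ W x
  measurable : Measurable W
  integrable : Integrable fun x => W x ^ p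

/-- The sums of `γ`-th powers of the negative compressed energies. -/
def sNegSums (γ : ℝ) (W : ℝ → ℝ) : Set ℝ :=
  {s | ∃ (N : ℕ) (ψ dψ : Fin N → ℝ → ℝ) (e : Fin N → ℝ),
    (∀ j, IsH1 (ψ j) (dψ j)) ∧
    (∀ i j, ∫ x, ψ i x * ψ j x = if i = j then 1 else 0) ∧
    (∀ i j, sForm W (ψ i) (dψ i) (ψ j) (dψ j) = if i = j then -e i else 0) ∧
    (∀ j, 0 < e j) ∧ s = ∑ j, e j ^ γ}

/-- The Lieb-Thirring ratios; `L_γ(1)` is their supremum. -/
def sLTRatios (γ : ℝ) : Set ℝ :=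
  {r | ∃ W : ℝ → ℝ, IsSPotential (γ + 1 / 2) W ∧ 0 < ∫ x, W x ^ (γ + 1 / 2) ∧
    ∃ s ∈ sNegSums γ W, r = s / ∫ x, W x ^ (γ + 1 / 2)}

/-- What lifting and calibration prove: the sharp bound for a bounded potential with compact
support and a family whose energy on the span of its first `j + 1` members is at most `-k j ^ 2`. -/
def SCoreBound (γ : ℝ) : Prop :=
  ∀ (W : ℝ → ℝ) (a b B : ℝ), Measurable W → (∀ x, 0 ≤ W x) → (∀ x, W x ≤ B) →
  (∀ x, x ∉ Set.Icc a b → W x = 0) →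
  ∀ (N : ℕ) (ψ dψ : Fin N → ℝ → ℝ) (k : Fin N → ℝ),
    (∀ j, IsH1 (ψ j) (dψ j)) →
    (∀ i j, ∫ x, ψ i x * ψ j x = if i = j then 1 else 0) →
    (∀ j, 0 < k j) → (∀ i j, i ≤ j → k j ≤ k i) →
    (∀ (j : Fin N) (c : Fin N → ℝ), (∀ i, j < i → c i = 0) →
      ∑ i, ∑ l, c i * c l * sForm W (ψ i) (dψ i) (ψ l) (dψ l) ≤ -k j ^ 2 * ∑ i, c i ^ 2) →
    ∑ j, k j ^ (2 * γ) ≤ L1 γ * ∫ x, W x ^ (γ + 1 / 2)

/-! ## Matrix potentials -/

variable {𝕜 : Type*} [RCLike 𝕜] {n : Type*} [Fintype n] [DecidableEq n]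

/-- The trace of the `p`-th power, by functional calculus. -/
noncomputable def trPow (p : ℝ) (A : Matrix n n 𝕜) : ℝ :=
  open Classical in
  if h : A.IsHermitian then ∑ i, h.eigenvalues i ^ p else 0

/-- The form of `-d²/dx² - W`. -/
noncomputable def mForm (W : ℝ → Matrix n n 𝕜) (ψ dψ φ dφ : ℝ → EuclideanSpace 𝕜 n) : 𝕜 :=
  (∫ x, ⟪dψ x, dφ x⟫_𝕜) - ∫ x, ⟪ψ x, Matrix.toEuclideanLin (W x) (φ x)⟫_𝕜

/-- A positive semidefinite potential with integrable `tr W^p`. -/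
structure IsMPotential (p : ℝ) (W : ℝ → Matrix n n 𝕜) : Prop where
  posSemidef : ∀ x, (W x).PosSemidef
  measurable : ∀ i j, Measurable fun x => W x i j
  integrable : Integrable fun x => trPow p (W x)

/-- The sums of `γ`-th powers of the negative compressed energies. -/
def mNegSums (γ : ℝ) (W : ℝ → Matrix n n 𝕜) : Set ℝ :=
  {s | ∃ (N : ℕ) (ψ dψ : Fin N → ℝ → EuclideanSpace 𝕜 n) (e : Fin N → ℝ),
    (∀ j, IsH1 (ψ j) (dψ j)) ∧
    (∀ i j, ∫ x, ⟪ψ i x, ψ j x⟫_𝕜 = if i = j then 1 else 0) ∧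
    (∀ i j, mForm W (ψ i) (dψ i) (ψ j) (dψ j) = if i = j then -(e i : 𝕜) else 0) ∧
    (∀ j, 0 < e j) ∧ s = ∑ j, e j ^ γ}

/-- The Lieb-Thirring ratios for complex `m × m` potentials; `L_γ(m)` is their supremum. -/
def mLTRatios (γ : ℝ) (m : ℕ) : Set ℝ :=
  {r | ∃ W : ℝ → Matrix (Fin m) (Fin m) ℂ, IsMPotential (γ + 1 / 2) W ∧
    0 < ∫ x, trPow (γ + 1 / 2) (W x) ∧
    ∃ s ∈ mNegSums γ W, r = s / ∫ x, trPow (γ + 1 / 2) (W x)}

/-- The same interface as `SCoreBound` for real symmetric matrix potentials. -/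
def MCoreBound (γ : ℝ) : Prop :=
  ∀ (m : ℕ) (W : ℝ → Matrix (Fin m) (Fin m) ℝ) (a b B : ℝ),
  (∀ i j, Measurable fun x => W x i j) → (∀ x, (W x).PosSemidef) →
  (∀ x i j, |W x i j| ≤ B) → (∀ x, x ∉ Set.Icc a b → W x = 0) →
  ∀ (N : ℕ) (ψ dψ : Fin N → ℝ → EuclideanSpace ℝ (Fin m)) (k : Fin N → ℝ),
    (∀ j, IsH1 (ψ j) (dψ j)) →
    (∀ i j, ∫ x, ⟪ψ i x, ψ j x⟫_ℝ = if i = j then 1 else 0) →
    (∀ j, 0 < k j) → (∀ i j, i ≤ j → k j ≤ k i) →
    (∀ (j : Fin N) (c : Fin N → ℝ), (∀ i, j < i → c i = 0) →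
      ∑ i, ∑ l, c i * c l * mForm W (ψ i) (dψ i) (ψ l) (dψ l) ≤ -k j ^ 2 * ∑ i, c i ^ 2) →
    ∑ j, k j ^ (2 * γ) ≤ L1 γ * ∫ x, trPow (γ + 1 / 2) (W x)

end Vale.Agent.P371
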